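import Vale.Agent.P168W95.Gen

/-! P168: the expectations over samples are the iterated integrals of the starting files. -/

namespace Vale.Agent.P168W95

open MeasureTheory ProbabilityTheory
open scoped NNReal
open P168 (Clause maxTheta)

theorem sum_int {T : Type} [MeasurableSpace T] {ξ : Measure T} [IsProbabilityMeasure ξ] {g : T → ℝ}
    (hg : Integrable g ξ) (n : ℕ) :
    Integrable (fun ω : Fin n → T => ∑ k, g (ω k)) (Measure.pi fun _ => ξ) ∧
      ∫ ω : Fin n → T, ∑ k, g (ω k) ∂(Measure.pi fun _ => ξ) = (∫ t, g t ∂ξ) * n := by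
  have h := fun k : Fin n => measurePreserving_eval (fun _ : Fin n => ξ) k
  have hi : ∀ k : Fin n, Integrable (fun ω : Fin n → T => g (ω k)) (Measure.pi fun _ => ξ) :=
    fun k => (h k).integrable_comp_of_integrable hg
  refine ⟨integrable_finsetSum _ fun k _ => hi k, ?_⟩
  rw [integral_finsetSum _ fun k _ => hi k]
  have h2 : ∀ k : Fin n, ∫ ω : Fin n → T, g (ω k) ∂(Measure.pi fun _ => ξ) = ∫ t, g t ∂ξ :=
    fun k => (h k).hasLaw.integral_comp hg.aestronglyMeasurable
  simp [h2, mul_comm]

theorem add_int {E F : Type} [MeasurableSpace E] [MeasurableSpace F] {μ : Measure E}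
    {η : Measure F} [IsProbabilityMeasure μ] [IsProbabilityMeasure η] {f : E → ℝ} {g : F → ℝ}
    (hf : Integrable f μ) (hg : Integrable g η) :
    Integrable (fun z : E × F => f z.1 + g z.2) (μ.prod η) ∧
      ∫ z : E × F, f z.1 + g z.2 ∂(μ.prod η) = ∫ a, f a ∂μ + ∫ a, g a ∂η := by
  refine ⟨(hf.comp_fst η).add (hg.comp_snd μ), ?_⟩
  rw [integral_add (hf.comp_fst η) (hg.comp_snd μ), integral_fun_fst, integral_fun_snd]
  simp

theorem sum_mem {S : Type} [Fintype S] [Nonempty S] {a : S → ℝ} {t : ℝ}
    (h : ∀ s, Real.exp (-t) ≤ a s ∧ a s ≤ Real.exp t) :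
    Real.exp (-(t + Real.log (Fintype.card S))) ≤ ∑ s, a s ∧
      ∑ s, a s ≤ Real.exp (t + Real.log (Fintype.card S)) := by
  have hc : (1 : ℝ) ≤ Fintype.card S := by exact_mod_cast Fintype.card_pos
  obtain ⟨s0⟩ := ‹Nonempty S›
  constructor
  · refine le_trans (Real.exp_le_exp.2 ?_) ((h s0).1.trans (Finset.single_le_sum
      (fun s _ => (Real.exp_pos _).le.trans (h s).1) (Finset.mem_univ s0)))
    linarith [Real.log_nonneg hc]
  · rw [Real.exp_add, Real.exp_log (by linarith)]
    refine (Finset.sum_le_sum fun s _ => (h s).2).trans (le_of_eq ?_)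
    simp [mul_comm]

theorem prod_mem {n : ℕ} {a t : Fin n → ℝ}
    (h : ∀ k, Real.exp (-t k) ≤ a k ∧ a k ≤ Real.exp (t k)) :
    Real.exp (-∑ k, t k) ≤ ∏ k, a k ∧ ∏ k, a k ≤ Real.exp (∑ k, t k) := by
  rw [← Finset.sum_neg_distrib, Real.exp_sum, Real.exp_sum]
  exact ⟨Finset.prod_le_prod (fun k _ => (Real.exp_pos _).le) fun k _ => (h k).1,
    Finset.prod_le_prod (fun k _ => (Real.exp_pos _).le.trans (h k).1) fun k _ => (h k).2⟩

variable {K : ℕ}

/-- The function `θ` of a clause. -/
noncomputable def th (c : Clause K) : Fn K := fun σ => P168.theta c σ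

theorem meas_th : Measurable (th : Clause K → Fn K) :=
  measurable_pi_lambda _ P168.measurable_theta

theorem mp_T {S : Type} [MeasurableSpace S] (ρ : Measure (Clause K)) [IsProbabilityMeasure ρ]
    (s : Measure S) [IsProbabilityMeasure s] (n : ℕ) :
    MeasurePreserving (fun ω : Fin n → Clause K × S => (fun k => th (ω k).1, fun k => (ω k).2))
      (Measure.pi fun _ => ρ.prod s)
      ((Measure.pi fun _ => ρ.map th).prod (Measure.pi fun _ => s)) := by
  have := Measure.isProbabilityMeasure_map (μ := ρ) meas_th.aemeasurable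
  exact ((measurePreserving_pi (fun _ : Fin n => ρ) (fun _ => ρ.map th)
    fun _ => meas_th.measurePreserving ρ).prod (MeasurePreserving.id _)).comp
    (measurePreserving_arrowProdEquivProdArrow (Clause K) S (Fin n) (fun _ => ρ) fun _ => s)

theorem meas_cavity {α : Type} [MeasurableSpace α] {θ : α → Fn K} {l : α → Fin K}
    {y : α → Fin K → ℝ} (hθ : Measurable θ) (hl : Measurable l) (hy : Measurable y) (ε : Bool) :
    Measurable fun a => cavity (θ a) (l a) (y a) ε := by
  have h : Measurable fun p : (Fn K × (Fin K → ℝ)) × Fin K => cavity p.1.1 p.2 p.1.2 ε :=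
    measurable_from_prod_countable_left fun l => by
      show Measurable fun p : Fn K × (Fin K → ℝ) => cavity p.1 l p.2 ε
      unfold cavity
      fun_prop
  exact h.comp ((hθ.prodMk hy).prodMk hl)

theorem meas_edge {α : Type} [MeasurableSpace α] {θ : α → Fn K} {y : α → Fin K → ℝ}
    (hθ : Measurable θ) (hy : Measurable y) : Measurable fun a => edge (θ a) (y a) := by
  unfold edge
  fun_prop

theorem meas_message {α ι : Type} [MeasurableSpace α] {r : ℕ}
    {x : (Fin (r + 1) → unitInterval) → ℝ} (hx : Measurable x) {w : α → ι → unitInterval}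
    {v : α → Fin r → ι → unitInterval} (hw : Measurable w) (hv : Measurable v) (i : ι) :
    Measurable fun a => P168.message x (w a) (v a) i :=
  hx.comp (P168.PT.measurable_cons.comp (((measurable_pi_apply i).comp hw).prodMk
    (measurable_pi_lambda _ fun p => (measurable_pi_apply i).comp
      ((measurable_pi_apply p).comp hv))))

theorem cavity_th (c : Clause K) (l : Fin K) (y : Fin K → ℝ) (ε : Bool) :
    cavity (th c) l y ε = P168.cavityFactor c l y ε := Finset.sum_filter _ _

theorem mp_level (n : ℕ) : MeasurePreserving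
    (fun (w : ℕ × Fin K → unitInterval) (p : Fin n × Fin K) => w (p.1, p.2)) (levelLaw K) volume :=
  mp_res volume (e := fun p : Fin n × Fin K => ((p.1 : ℕ), p.2)) fun _ _ h =>
    Prod.ext (Fin.ext (Prod.mk.inj h).1) (Prod.mk.inj h).2

variable {Ω : Type*} [MeasurableSpace Ω] {P : Measure Ω} {c : ℝ≥0} {ρ : Measure (Clause K)}
  [IsProbabilityMeasure ρ] {ν : Measure ℝ} [IsProbabilityMeasure ν]

theorem pressure_eq {N : ℕ} [NeZero N] {lam : ℝ≥0} {D : Sample Ω K (ℕ × Fin K) (Fin N) N}
    (h : D.Valid P (lam * N) (ρ.map th) ν) (hρ : Integrable maxTheta ρ)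
    (hν : Integrable (fun h => h) ν) :
    Integrable (logZ D) P ∧ pressure P D = P168.pressure lam ρ ν N := by
  have := h.prob
  have := Measure.isProbabilityMeasure_map (μ := P) h.meas_rest.aemeasurable
  have := Measure.isProbabilityMeasure_map (μ := ρ) meas_th.aemeasurable
  set s : Measure (Fin N) := uniformOn Set.univ with hs
  have hη : P.map (fun ω => id fun v => D.field v ω) = Measure.pi fun _ => ν := by
    refine (h.groups.2.2.2.2.2.map_fun_eq_pi_map fun v => (h.field v).1.aemeasurable).trans ?_
    congr 1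
    funext v
    exact (h.field v).2.map_eq
  have hg : Integrable (fun t : Clause K × (Fin K → Fin N) => maxTheta t.1)
      (ρ.prod (Measure.pi fun _ => s)) := hρ.comp_fst _
  have hb := fun n => add_int (sum_int hg n).1
    ((sum_int hν.abs N).1.add (integrable_const (Real.log (Fintype.card (Fin N → Bool)))))
  obtain ⟨h1, h2, h3⟩ := fub h.joint
    (fun n => h.law n (e := fun p : Fin n × Fin K => ((p.1 : ℕ), p.2))
      (fun _ _ h => Prod.ext (Fin.ext (Prod.mk.inj h).1) (Prod.mk.inj h).2) measurable_id hη)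
    (fun n => (((MeasurePreserving.id _).prod (P168.PT.mp_uncurry s)).comp
      (mp_T ρ (Measure.pi fun _ => s) n)).prod (MeasurePreserving.id (Measure.pi fun _ => ν)))
    (G := fun n z => Real.log (∑ σ : Fin N → Bool, Real.exp
      (∑ k, z.1.1 k (fun j => σ (z.1.2 (k, j))) + ∑ v, z.2 v * spin (σ v))))
    (fun n => by
      have e : Measurable fun p : Fn K × (Fin K → Bool) => p.1 p.2 :=
        measurable_from_prod_countable_left fun σ => measurable_pi_apply σ
      refine Real.measurable_log.comp (Finset.measurable_sum _ fun σ _ =>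
        Real.measurable_exp.comp (Measurable.add (Finset.measurable_sum _ fun k _ => ?_)
          (by fun_prop)))
      exact e.comp (Measurable.prodMk (by fun_prop) (measurable_pi_lambda _ fun j =>
        (measurable_of_countable σ).comp (by fun_prop))))
    (fun n => (hb n).1)
    (fun n z => by
      have h4 := sum_mem (S := Fin N → Bool) (t := ∑ k, maxTheta (z.1 k).1 + ∑ v, |z.2 v|)
        (a := fun σ => Real.exp (∑ k, P168.theta (z.1 k).1 (fun j => σ ((z.1 k).2 j)) +
          ∑ v, z.2 v * spin (σ v))) fun σ => by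
          have h5 : |∑ k, P168.theta (z.1 k).1 (fun j => σ ((z.1 k).2 j)) +
              ∑ v, z.2 v * spin (σ v)| ≤ ∑ k, maxTheta (z.1 k).1 + ∑ v, |z.2 v| :=
            (abs_add_le _ _).trans (add_le_add ((Finset.abs_sum_le_sum_abs _ _).trans
              (Finset.sum_le_sum fun k _ => P168.abs_theta_le _ _))
              ((Finset.abs_sum_le_sum_abs _ _).trans (Finset.sum_le_sum fun v _ => by
                rw [abs_mul, show |spin (σ v)| = 1 from P168.KS.spin_abs _, mul_one])))
          exact ⟨Real.exp_le_exp.2 (abs_le.1 h5).1, Real.exp_le_exp.2 (abs_le.1 h5).2⟩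
      exact (P168.log_abs_of_mem h4.1 h4.2).trans (le_of_eq (add_assoc _ _ _)))
    (fun n => (hb n).2.trans (by rw [(sum_int hg n).2]))
  have e : logZ D = fun ω => Real.log (∑ σ : Fin N → Bool, Real.exp
      (∑ k : Fin (D.num ω), D.theta k ω (fun j => σ (D.site (k, j) ω)) +
        ∑ v, D.field v ω * spin (σ v))) := by
    funext ω
    simp only [logZ, energy, Finset.sum_range]
  rw [pressure, e, P168.pressure]
  refine ⟨h1, ?_⟩
  congr 1
  refine h2.trans (integral_congr_ae (Filter.Eventually.of_forall fun n => ?_))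
  exact integral_prod _ (h3 n)

variable {r : ℕ} {m : Fin r → ℝ} {x : (Fin (r + 1) → unitInterval) → ℝ}

/-- `U` with `n` interactions. -/
noncomputable def YU (x : (Fin (r + 1) → unitInterval) → ℝ) (n : ℕ)
    (z : (((Fin n → Fn K) × (Fin n → Fin K)) × ℝ) × (Fin n × Fin K → unitInterval))
    (v : Fin r → Fin n × Fin K → unitInterval) : ℝ :=
  ∑ ε : Bool, Real.exp (z.1.2 * spin ε) *
    ∏ k, cavity (z.1.1.1 k) (z.1.1.2 k) (fun j => P168.message x z.2 v (k, j)) ε

/-- `V` with `n` interactions. -/
noncomputable def YV (x : (Fin (r + 1) → unitInterval) → ℝ) (n : ℕ)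
    (z : (Fin n → Fn K) × (Fin n × Fin K → unitInterval))
    (v : Fin r → Fin n × Fin K → unitInterval) : ℝ :=
  ∏ k, edge (z.1 k) fun j => P168.message x z.2 v (k, j)

theorem meas_YU (hx : Measurable x) (n : ℕ) :
    Measurable fun q : _ × (Fin r → Fin n × Fin K → unitInterval) => YU x n q.1 q.2 :=
  Finset.measurable_sum _ fun ε _ => Measurable.mul (by fun_prop)
    (Finset.measurable_prod _ fun k _ => meas_cavity (by fun_prop) (by fun_prop)
      (measurable_pi_lambda _ fun j => meas_message hx (by fun_prop) measurable_snd _) ε)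

theorem meas_YV (hx : Measurable x) (n : ℕ) :
    Measurable fun q : _ × (Fin r → Fin n × Fin K → unitInterval) => YV x n q.1 q.2 :=
  Finset.measurable_prod _ fun k _ => meas_edge (by fun_prop)
    (measurable_pi_lambda _ fun j => meas_message hx (by fun_prop) measurable_snd _)

theorem meas_YU' (hx : Measurable x) (n : ℕ) (z) : Measurable (YU (K := K) x n z) :=
  (meas_YU hx n).of_uncurry_left

theorem meas_YV' (hx : Measurable x) (n : ℕ) (z) : Measurable (YV (K := K) x n z) :=
  (meas_YV hx n).of_uncurry_left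

theorem bound_U (hx : IsTrial r m x) {n : ℕ} (ω : Fin n → Clause K × Fin K) (h : ℝ)
    (w : Fin n × Fin K → unitInterval) :
    |Real.log (P168.nest volume r m (YU x n (((fun k => th (ω k).1, fun k => (ω k).2), h), w)))| ≤
      ∑ k, maxTheta (ω k).1 + |h| + Real.log (Fintype.card Bool) := by
  have h4 := fun v : Fin r → Fin n × Fin K → unitInterval =>
    sum_mem (S := Bool) (t := ∑ k, maxTheta (ω k).1 + |h|)
      (a := fun ε => Real.exp (h * spin ε) * ∏ k, cavity (th (ω k).1) (ω k).2
        (fun j => P168.message x w v (k, j)) ε) fun ε => by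
      have h5 := prod_mem (t := fun k => maxTheta (ω k).1) fun k =>
        P168.cavityFactor_mem (ω k).1 (ω k).2
          (fun j => P168.message x w v (k, j)) (fun j => abs_le.2 (hx.2.2.2 _)) ε
      have h6 : |h * spin ε| ≤ |h| := by
        rw [abs_mul, show |spin ε| = 1 from P168.KS.spin_abs _, mul_one]
      simp_rw [cavity_th]
      rw [neg_add, add_comm, add_comm _ |h|, Real.exp_add, Real.exp_add]
      exact ⟨mul_le_mul (Real.exp_le_exp.2 (abs_le.1 h6).1) h5.1 (Real.exp_pos _).le
        (Real.exp_pos _).le, mul_le_mul (Real.exp_le_exp.2 (abs_le.1 h6).2) h5.2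
        ((Real.exp_pos _).le.trans h5.1) (Real.exp_pos _).le⟩
  exact P168.PT.log_nest_abs_le (fun p => (hx.2.1 p).1)
    ⟨meas_YU' hx.2.2.1 n _, fun v => (h4 v).1, fun v => (h4 v).2⟩

theorem bound_V (hx : IsTrial r m x) {n : ℕ} (ω : Fin n → Clause K)
    (w : Fin n × Fin K → unitInterval) :
    |Real.log (P168.nest volume r m (YV x n (fun k => th (ω k), w)))| ≤
      ∑ k, maxTheta (ω k) + 0 := by
  rw [add_zero]
  have h4 := fun v : Fin r → Fin n × Fin K → unitInterval =>
    prod_mem (t := fun k => maxTheta (ω k)) fun k => P168.edgeFactor_mem (ω k)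
      (fun j => P168.message x w v (k, j)) fun j => abs_le.2 (hx.2.2.2 _)
  exact P168.PT.log_nest_abs_le (fun p => (hx.2.1 p).1)
    ⟨meas_YV' hx.2.2.1 n _, fun v => (h4 v).1, fun v => (h4 v).2⟩

theorem calT_U [NeZero K] {lam : ℝ≥0} {D : Sample Ω K ℕ Unit K}
    (h : D.Valid P (K * lam) (ρ.map th) ν) (hρ : Integrable maxTheta ρ)
    (hν : Integrable (fun h => h) ν) (hx : IsTrial r m x) :
    Integrable (logBottom r m x (bigU D)) (P.prod (levelLaw K)) ∧
      calT P r m x (bigU D) = P168.trialU lam ρ ν r m x := by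
  have := h.prob
  have := Measure.isProbabilityMeasure_map (μ := P) h.meas_rest.aemeasurable
  have := Measure.isProbabilityMeasure_map (μ := ρ) meas_th.aemeasurable
  have : IsProbabilityMeasure (levelLaw K) := by unfold levelLaw; infer_instance
  set s : Measure (Fin K) := uniformOn Set.univ with hs
  have hg : Integrable (fun t : Clause K × Fin K => maxTheta t.1) (ρ.prod s) := hρ.comp_fst _
  have hb1 := fun n => add_int (sum_int hg n).1 hν.abs
  have hb := fun n => add_int (η := (volume : Measure (Fin n × Fin K → unitInterval))) (hb1 n).1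
    (integrable_const (Real.log (Fintype.card Bool)))
  obtain ⟨h1, h2, h3⟩ := fub (h.joint' (levelLaw K))
    (R := fun n y => (((fun k : Fin n => y.1.1.1 k, fun k : Fin n => y.1.1.2 k), y.1.2 ()),
      fun p : Fin n × Fin K => y.2 (p.1, p.2)))
    (fun n => (h.law n (e := fun k : Fin n => (k : ℕ)) Fin.val_injective (measurable_pi_apply ())
      (h.field ()).2.map_eq).prod (mp_level n))
    (T := fun n (z : ((Fin n → Clause K × Fin K) × ℝ) × (Fin n × Fin K → unitInterval)) =>
      (((fun k => th (z.1.1 k).1, fun k => (z.1.1 k).2), z.1.2), z.2))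
    (fun n => ((mp_T ρ s n).prod (MeasurePreserving.id ν)).prod (MeasurePreserving.id volume))
    (G := fun n z => Real.log (P168.nest volume r m (YU x n z)))
    (fun n => Real.measurable_log.comp
      (P168.PT.measurable_nest volume r m (YU x n) (meas_YU hx.2.2.1 n)))
    (fun n => (hb n).1) (fun n z => bound_U hx z.1.1 z.1.2 z.2)
    (C := ∫ h, |h| ∂ν + Real.log (Fintype.card Bool))
    (fun n => (hb n).2.trans (by
      rw [(hb1 n).2, (sum_int hg n).2, add_assoc]
      simp only [integral_const, probReal_univ, smul_eq_mul, one_mul]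
      rfl))
  have e : logBottom r m x (bigU D) = fun z => Real.log (P168.nest volume r m
      (YU x (D.num z.1) (((fun k => D.theta k z.1, fun k => D.site k z.1), D.field () z.1),
        fun p => z.2 (p.1, p.2)))) := by
    funext z
    rw [logBottom, descend_eq, ← P168.PT.nest_comp (mp_level (D.num z.1)) r m _
      (meas_YU' hx.2.2.1 _ _)]
    simp only [bigU, Finset.prod_range]
    rfl
  rw [calT, e, P168.trialU]
  refine ⟨h1, ?_⟩
  refine h2.trans (integral_congr_ae (Filter.Eventually.of_forall fun n => ?_))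
  refine (integral_prod _ (h3 n)).trans ((integral_prod _ (h3 n).integral_prod_left).trans ?_)
  simp_rw [P168.hierLog, ← cavity_th]
  rfl

omit [IsProbabilityMeasure ν] in
theorem calT_V {lam : ℝ≥0} {D : Sample Ω K Empty Empty 1}
    (h : D.Valid P (((K - 1 : ℕ) : ℝ≥0) * lam) (ρ.map th) ν) (hρ : Integrable maxTheta ρ)
    (hx : IsTrial r m x) :
    Integrable (logBottom r m x (bigV D)) (P.prod (levelLaw K)) ∧
      calT P r m x (bigV D) = P168.trialV lam ρ r m x := by
  have := h.prob
  have := Measure.isProbabilityMeasure_map (μ := P) h.meas_rest.aemeasurable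
  have := Measure.isProbabilityMeasure_map (μ := ρ) meas_th.aemeasurable
  have : IsProbabilityMeasure (levelLaw K) := by unfold levelLaw; infer_instance
  have hb := fun n => add_int (η := (volume : Measure (Fin n × Fin K → unitInterval)))
    (sum_int hρ n).1 (integrable_const 0)
  obtain ⟨h1, h2, h3⟩ := fub (h.joint' (levelLaw K))
    (R := fun n y => (fun k : Fin n => y.1.1.1 k, fun p : Fin n × Fin K => y.2 (p.1, p.2)))
    (fun n => (h.law' n).prod (mp_level n))
    (T := fun n (z : (Fin n → Clause K) × (Fin n × Fin K → unitInterval)) =>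
      (fun k => th (z.1 k), z.2))
    (fun n => (measurePreserving_pi (fun _ : Fin n => ρ) (fun _ => ρ.map th)
      fun _ => meas_th.measurePreserving ρ).prod (MeasurePreserving.id volume))
    (G := fun n z => Real.log (P168.nest volume r m (YV x n z)))
    (fun n => Real.measurable_log.comp
      (P168.PT.measurable_nest volume r m (YV x n) (meas_YV hx.2.2.1 n)))
    (fun n => (hb n).1) (fun n z => bound_V hx z.1 z.2) (C := 0)
    (fun n => (hb n).2.trans (by
      rw [(sum_int hρ n).2, integral_zero]))
  have e : logBottom r m x (bigV D) = fun z => Real.log (P168.nest volume r m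
      (YV x (D.num z.1) (fun k => D.theta k z.1, fun p => z.2 (p.1, p.2)))) := by
    funext z
    rw [logBottom, descend_eq, ← P168.PT.nest_comp (mp_level (D.num z.1)) r m _
      (meas_YV' hx.2.2.1 _ _)]
    simp only [bigV, Finset.prod_range]
    rfl
  rw [calT, e, P168.trialV]
  refine ⟨h1, ?_⟩
  refine h2.trans (integral_congr_ae (Filter.Eventually.of_forall fun n => ?_))
  exact integral_prod _ (h3 n)

end Vale.Agent.P168W95
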