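import Mathlib

/-! P168: the diluted spin glass and the trial functionals, built from independent random variables
on arbitrary probability spaces. -/

namespace Vale.Agent.P168W95

open MeasureTheory ProbabilityTheory
open scoped NNReal

/-- The two spin values: `true` stands for `+1`, `false` for `-1`. -/
def spin (s : Bool) : ℝ := if s then 1 else -1

/-- Real functions on `{-1, 1}^K`. -/
abbrev Fn (K : ℕ) : Type := (Fin K → Bool) → ℝ

section

variable {Ω : Type*} [MeasurableSpace Ω] {K : ℕ}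

/-- The conditions on the random function `θ`, on `a, b, f_1, …, f_K` and on the field `h`. -/
structure IsModel (P : Measure Ω) (θ : Ω → Fn K) (a b : Ω → ℝ) (f : Fin K → Ω → Bool → ℝ)
    (h : Ω → ℝ) : Prop where
  two_le : 2 ≤ K
  even : Even K
  meas : Measurable θ ∧ Measurable a ∧ Measurable b ∧ (∀ j, Measurable (f j)) ∧ Measurable h
  form : ∀ᵐ ω ∂P, ∀ σ, Real.exp (θ ω σ) = a ω * (1 + b ω * ∏ j, f j ω (σ j))
  range : ∀ᵐ ω ∂P, 0 < a ω ∧ b ω ∈ Set.Ioo (-1 : ℝ) 1 ∧ ∀ j s, f j ω s ∈ Set.Icc (-1 : ℝ) 1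
  positivity : ∀ n : ℕ, 1 ≤ n → 0 ≤ ∫ ω, (-b ω) ^ n ∂P
  field_int : Integrable h P
  theta_int : Integrable (fun ω => ⨆ σ, |θ ω σ|) P

/-- The conditions of Panchenko and Talagrand: the `f_j` are i.i.d. and independent of `b`. -/
structure PTIndep (P : Measure Ω) (b : Ω → ℝ) (f : Fin K → Ω → Bool → ℝ) : Prop where
  same : ∀ i j, IdentDistrib (f i) (f j) P P
  indep : iIndepFun f P
  indep_b : IndepFun b (fun ω j => f j ω) P

/-- Random variables on `Ω`: a number, functions `θ_k`, indices in `{1, …, M}` (labelled by `A`)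
and fields (labelled by `B`). -/
structure Sample (Ω : Type*) (K : ℕ) (A B : Type) (M : ℕ) where
  num : Ω → ℕ
  theta : ℕ → Ω → Fn K
  site : A → Ω → Fin M
  field : B → Ω → ℝ

/-- The number is Poisson of mean `c`, the `θ_k` have the law `τ`, the indices are uniform, the
fields have the law `ν`, and all these random variables are independent. -/
structure Sample.Valid {A B : Type} {M : ℕ} (D : Sample Ω K A B M) (P : Measure Ω) (c : ℝ≥0)
    (τ : Measure (Fn K)) (ν : Measure ℝ) : Prop where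
  num : Measurable D.num ∧ HasLaw D.num (poissonMeasure c) P
  theta : ∀ k, Measurable (D.theta k) ∧ HasLaw (D.theta k) τ P
  site : ∀ i, Measurable (D.site i) ∧ HasLaw (D.site i) (uniformOn Set.univ) P
  field : ∀ v, Measurable (D.field v) ∧ HasLaw (D.field v) ν P
  indep : iIndep (Sum.elim (fun _ : Unit => MeasurableSpace.comap D.num inferInstance)
    (Sum.elim (fun k => MeasurableSpace.comap (D.theta k) inferInstance)
      (Sum.elim (fun i => MeasurableSpace.comap (D.site i) inferInstance)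
        fun v => MeasurableSpace.comap (D.field v) inferInstance))) P

/-- The Hamiltonian `H_N(σ)`; the interactions are numbered `k = 0, …, π - 1`. -/
noncomputable def energy {Ω : Type*} {N : ℕ} (D : Sample Ω K (ℕ × Fin K) (Fin N) N) (ω : Ω)
    (σ : Fin N → Bool) : ℝ :=
  ∑ k ∈ Finset.range (D.num ω), D.theta k ω (fun j => σ (D.site (k, j) ω)) +
    ∑ v, D.field v ω * spin (σ v)

/-- `log ∑_σ exp H_N(σ)`. -/
noncomputable def logZ {Ω : Type*} {N : ℕ} (D : Sample Ω K (ℕ × Fin K) (Fin N) N) (ω : Ω) : ℝ :=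
  Real.log (∑ σ : Fin N → Bool, Real.exp (energy D ω σ))

/-- The pressure `F_N`. -/
noncomputable def pressure {N : ℕ} (P : Measure Ω) (D : Sample Ω K (ℕ × Fin K) (Fin N) N) : ℝ :=
  1 / (N : ℝ) * ∫ ω, logZ D ω ∂P

/-- The law of the variables of one level: i.i.d. uniform on `[0,1]`, one for each message
`(k, j)`. -/
noncomputable def levelLaw (K : ℕ) : Measure (ℕ × Fin K → unitInterval) :=
  Measure.infinitePi fun _ => volume

/-- `Y_0`, from `Y_r = Y` and `Y_{p-1} = (E_p Y_p^{m_p})^{1/m_p}` for `p = r, …, 1`; `Y_p` is a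
function of the levels `1, …, p`, and `E_p` integrates the last one, of law `Q`. -/
noncomputable def descend {W : Type} [MeasurableSpace W] (Q : Measure W) :
    (r : ℕ) → (Fin r → ℝ) → ((Fin r → W) → ℝ) → ℝ
  | 0, _, Y => Y Fin.elim0
  | r + 1, m, Y => descend Q r (Fin.init m) fun v =>
      (∫ u, Y (Fin.snoc (α := fun _ => W) v u) ^ m (Fin.last r) ∂Q) ^ (1 / m (Fin.last r))

/-- `log Y_0`, for `Y` a function of the further randomness `ω` and of the values
`x(ω_0, …, ω_r)` of the messages; it depends on `ω` and on the variables of level `0`. -/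
noncomputable def logBottom {Ω : Type*} (r : ℕ) (m : Fin r → ℝ)
    (x : (Fin (r + 1) → unitInterval) → ℝ) (Y : Ω → (ℕ × Fin K → ℝ) → ℝ)
    (z : Ω × (ℕ × Fin K → unitInterval)) : ℝ :=
  Real.log (descend (levelLaw K) r m fun v => Y z.1 fun i => x (Fin.cons (z.2 i) fun p => v p i))

/-- `𝒯 Y = E log Y_0`. -/
noncomputable def calT (P : Measure Ω) (r : ℕ) (m : Fin r → ℝ)
    (x : (Fin (r + 1) → unitInterval) → ℝ) (Y : Ω → (ℕ × Fin K → ℝ) → ℝ) : ℝ :=
  ∫ z, logBottom r m x Y z ∂(P.prod (levelLaw K))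

/-- `∑_{σ_ℓ = ε} e^{θ(σ)} ∏_{j ≠ ℓ} (1 + y_j σ_j) / 2`. -/
noncomputable def cavity (θ : Fn K) (l : Fin K) (y : Fin K → ℝ) (ε : Bool) : ℝ :=
  ∑ σ : Fin K → Bool with σ l = ε,
    Real.exp (θ σ) * ∏ j ∈ Finset.univ.erase l, (1 + y j * spin (σ j)) / 2

/-- `∑_σ e^{θ(σ)} ∏_j (1 + y_j σ_j) / 2`. -/
noncomputable def edge (θ : Fn K) (y : Fin K → ℝ) : ℝ :=
  ∑ σ : Fin K → Bool, Real.exp (θ σ) * ∏ j, (1 + y j * spin (σ j)) / 2

/-- `U`, for the values `y (k, j)` of the messages. -/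
noncomputable def bigU {Ω : Type*} (D : Sample Ω K ℕ Unit K) (ω : Ω) (y : ℕ × Fin K → ℝ) : ℝ :=
  ∑ ε : Bool, Real.exp (D.field () ω * spin ε) *
    ∏ k ∈ Finset.range (D.num ω), cavity (D.theta k ω) (D.site k ω) (fun j => y (k, j)) ε

/-- `V`, for the values `y (k, j)` of the messages (no indices, no fields). -/
noncomputable def bigV {Ω : Type*} (D : Sample Ω K Empty Empty 1) (ω : Ω) (y : ℕ × Fin K → ℝ) :
    ℝ :=
  ∏ k ∈ Finset.range (D.num ω), edge (D.theta k ω) fun j => y (k, j)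

/-- `0 < m_1 < ⋯ < m_r < 1`, and `x : [0,1]^{r+1} → [-1,1]` is measurable. -/
def IsTrial (r : ℕ) (m : Fin r → ℝ) (x : (Fin (r + 1) → unitInterval) → ℝ) : Prop :=
  StrictMono m ∧ (∀ p, m p ∈ Set.Ioo (0 : ℝ) 1) ∧ Measurable x ∧ ∀ w, x w ∈ Set.Icc (-1 : ℝ) 1

/-- `Φ_r = inf_{m, x} (𝒯 U - 𝒯 V)`. -/
noncomputable def phi {Ω' : Type*} [MeasurableSpace Ω'] (P : Measure Ω) (D : Sample Ω K ℕ Unit K)
    (P' : Measure Ω') (D' : Sample Ω' K Empty Empty 1) (r : ℕ) : EReal :=
  ⨅ (m : Fin r → ℝ) (x : (Fin (r + 1) → unitInterval) → ℝ) (_ : IsTrial r m x),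
    ((calT P r m x (bigU D) - calT P' r m x (bigV D') : ℝ) : EReal)

end

end Vale.Agent.P168W95
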