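import Vale.Agent.P168W95.Defs
import Vale.Agent.P168S.Main

/-! P168: joint laws of samples, existence of samples, Fubini over the Poisson number. -/

namespace Vale.Agent.P168W95

open MeasureTheory ProbabilityTheory
open scoped NNReal

theorem nest_snoc {W : Type} [MeasurableSpace W] (Q : Measure W) (r : ℕ) :
    ∀ (m : Fin (r + 1) → ℝ) (Y : (Fin (r + 1) → W) → ℝ), P168.nest Q (r + 1) m Y =
      P168.nest Q r (Fin.init m) fun v =>
        (∫ u, Y (Fin.snoc (α := fun _ => W) v u) ^ m (Fin.last r) ∂Q) ^ (1 / m (Fin.last r)) := by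
  induction r with
  | zero =>
    intro m Y
    rw [P168.nest_succ, P168.nest_zero]
    have h : ∀ u : W, (Fin.cons u Fin.elim0 : Fin 1 → W) =
        Fin.snoc (α := fun _ => W) Fin.elim0 u := fun u => by
      funext i
      fin_cases i
      rfl
    simp_rw [P168.nest_zero, h]
    rfl
  | succ r ih =>
    intro m Y
    rw [P168.nest_succ, P168.nest_succ Q r (Fin.init m)]
    simp_rw [ih, Fin.cons_snoc_eq_snoc_cons, Fin.tail_init_eq_init_tail]
    rfl

theorem descend_eq {W : Type} [MeasurableSpace W] (Q : Measure W) (r : ℕ) :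
    ∀ (m : Fin r → ℝ) (Y : (Fin r → W) → ℝ), descend Q r m Y = P168.nest Q r m Y := by
  induction r with
  | zero => intro m Y; rfl
  | succ r ih =>
    intro m Y
    rw [nest_snoc]
    exact ih _ _

/-- Fubini over the Poisson number. -/
theorem fub {Ω X : Type*} [MeasurableSpace Ω] [MeasurableSpace X] {P : Measure Ω} {c : ℝ≥0}
    {μ : Measure X} [IsProbabilityMeasure μ] {Φ : Ω → ℕ × X}
    (hΦ : MeasurePreserving Φ P ((poissonMeasure c).prod μ))
    {Z' Z : ℕ → Type} [∀ n, MeasurableSpace (Z' n)] [∀ n, MeasurableSpace (Z n)]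
    {ζ' : ∀ n, Measure (Z' n)} {ζ : ∀ n, Measure (Z n)}
    {R : ∀ n, X → Z' n} (hR : ∀ n, MeasurePreserving (R n) μ (ζ' n))
    {T : ∀ n, Z n → Z' n} (hT : ∀ n, MeasurePreserving (T n) (ζ n) (ζ' n))
    {G : ∀ n, Z' n → ℝ} (hG : ∀ n, Measurable (G n))
    {b : ∀ n, Z n → ℝ} (hb : ∀ n, Integrable (b n) (ζ n)) (hGb : ∀ n z, |G n (T n z)| ≤ b n z)
    {C D : ℝ} (hC : ∀ n, ∫ z, b n z ∂ζ n = D * n + C) :
    Integrable (fun ω => G (Φ ω).1 (R (Φ ω).1 (Φ ω).2)) P ∧
      ∫ ω, G (Φ ω).1 (R (Φ ω).1 (Φ ω).2) ∂P = ∫ n, (∫ z, G n (T n z) ∂ζ n) ∂poissonMeasure c ∧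
      ∀ n, Integrable (fun z => G n (T n z)) (ζ n) := by
  have h1 : ∀ n, Integrable (fun z => G n (T n z)) (ζ n) := fun n =>
    (hb n).mono' ((hG n).comp (hT n).measurable).aestronglyMeasurable
      (Filter.Eventually.of_forall (hGb n))
  have h2 : ∀ n, Integrable (G n) (ζ' n) := fun n =>
    ((hT n).integrable_comp (hG n).aestronglyMeasurable).1 (h1 n)
  have hF : Measurable fun z : ℕ × X => G z.1 (R z.1 z.2) :=
    measurable_from_prod_countable_right fun n => (hG n).comp (hR n).measurable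
  have e : ∀ n {g : Z' n → ℝ}, Measurable g → ∫ x, g (R n x) ∂μ = ∫ z, g (T n z) ∂ζ n :=
    fun n g hg => ((hR n).hasLaw.integral_comp hg.aestronglyMeasurable).trans
      ((hT n).hasLaw.integral_comp hg.aestronglyMeasurable).symm
  have h3 : Integrable (fun z : ℕ × X => G z.1 (R z.1 z.2)) ((poissonMeasure c).prod μ) := by
    refine (integrable_prod_iff hF.aestronglyMeasurable).2 ⟨Filter.Eventually.of_forall fun n =>
      (hR n).integrable_comp_of_integrable (h2 n), ?_⟩
    refine (P168.expGrowth_of_linear (c := |C|) (d := |D|) (fun n => ?_) (abs_nonneg _)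
      (abs_nonneg _)).integrable c
    rw [abs_of_nonneg (integral_nonneg fun _ => norm_nonneg _)]
    refine le_trans (le_of_eq (e n (hG n).norm))
      (le_trans (integral_mono (h1 n).norm (hb n) (hGb n)) ?_)
    rw [hC n, add_comm]
    exact add_le_add (le_abs_self _) (mul_le_mul_of_nonneg_right (le_abs_self _) n.cast_nonneg)
  refine ⟨hΦ.integrable_comp_of_integrable h3, ?_, h1⟩
  refine (hΦ.hasLaw.integral_comp hF.aestronglyMeasurable).trans ?_
  rw [integral_prod _ h3]
  exact integral_congr_ae (Filter.Eventually.of_forall fun n => e n (hG n))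

theorem mp_res {ι κ : Type} [Fintype κ] {S : Type} [MeasurableSpace S] (s : Measure S)
    [IsProbabilityMeasure s] {e : κ → ι} (he : Function.Injective e) :
    MeasurePreserving (fun (w : ι → S) (k : κ) => w (e k)) (Measure.infinitePi fun _ => s)
      (Measure.pi fun _ => s) := by
  refine ⟨measurable_pi_lambda _ fun k => measurable_pi_apply _, ?_⟩
  have h := (iIndepFun_infinitePi (P := fun _ : ι => s) (X := fun _ => id)
    fun _ => measurable_id).precomp he
  refine (h.map_fun_eq_pi_map fun k => (measurable_pi_apply _).aemeasurable).trans ?_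
  congr 1
  funext k
  exact Measure.infinitePi_map_eval _ _

section Sample

variable {Ω : Type*} [MeasurableSpace Ω] {K M : ℕ} {A B : Type} {D : Sample Ω K A B M}
  {P : Measure Ω} {c : ℝ≥0} {τ : Measure (Fn K)} {ν : Measure ℝ}

/-- All the variables except the number. -/
def Sample.rest {Ω : Type*} (D : Sample Ω K A B M) (ω : Ω) :
    ((ℕ → Fn K) × (A → Fin M)) × (B → ℝ) :=
  ((fun k => D.theta k ω, fun i => D.site i ω), fun v => D.field v ω)

theorem Sample.Valid.meas_rest (h : D.Valid P c τ ν) : Measurable D.rest :=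
  ((measurable_pi_lambda _ fun k => (h.theta k).1).prodMk
    (measurable_pi_lambda _ fun i => (h.site i).1)).prodMk
    (measurable_pi_lambda _ fun v => (h.field v).1)

theorem Sample.Valid.groups (h : D.Valid P c τ ν) :
    IndepFun D.num D.rest P ∧
      IndepFun (fun ω => (fun k => D.theta k ω, fun i => D.site i ω)) (fun ω v => D.field v ω) P ∧
      IndepFun (fun ω k => D.theta k ω) (fun ω i => D.site i ω) P ∧
      iIndepFun D.theta P ∧ iIndepFun D.site P ∧ iIndepFun D.field P := by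
  set σ : Unit ⊕ ℕ ⊕ A ⊕ B → MeasurableSpace Ω :=
    Sum.elim (fun _ : Unit => MeasurableSpace.comap D.num inferInstance)
    (Sum.elim (fun k => MeasurableSpace.comap (D.theta k) inferInstance)
      (Sum.elim (fun i => MeasurableSpace.comap (D.site i) inferInstance)
        fun v => MeasurableSpace.comap (D.field v) inferInstance)) with hσ
  have hi : iIndep σ P := h.indep
  have hle : ∀ t, σ t ≤ ‹MeasurableSpace Ω› := by
    rintro (_ | k | i | v)
    exacts [h.num.1.comap_le, (h.theta k).1.comap_le, (h.site i).1.comap_le,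
      (h.field v).1.comap_le]
  have key : ∀ {E F : Type} [MeasurableSpace E] [MeasurableSpace F] (f : Ω → E) (g : Ω → F)
      (S : Set (Unit ⊕ ℕ ⊕ A ⊕ B)), Measurable[⨆ t ∈ S, σ t] f → Measurable[⨆ t ∈ Sᶜ, σ t] g →
      IndepFun f g P := fun f g S hf hg => (IndepFun_iff_Indep _ _ _).2
    (indep_of_indep_of_le (indep_iSup_of_disjoint hle hi disjoint_compl_right) hf.comap_le
      hg.comap_le)
  have m0 : ∀ S : Set (Unit ⊕ ℕ ⊕ A ⊕ B), Sum.inl () ∈ S → Measurable[⨆ t ∈ S, σ t] D.num :=
    fun S hS => Measurable.of_comap_le (le_iSup₂_of_le (Sum.inl ()) hS le_rfl)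
  have m1 : ∀ S : Set (Unit ⊕ ℕ ⊕ A ⊕ B), (∀ k, Sum.inr (Sum.inl k) ∈ S) →
      Measurable[⨆ t ∈ S, σ t] fun ω k => D.theta k ω := fun S hS =>
    @measurable_pi_lambda _ _ _ (⨆ t ∈ S, σ t) _ _ fun k =>
      Measurable.of_comap_le (le_iSup₂_of_le _ (hS k) le_rfl)
  have m2 : ∀ S : Set (Unit ⊕ ℕ ⊕ A ⊕ B), (∀ k, Sum.inr (Sum.inr (Sum.inl k)) ∈ S) →
      Measurable[⨆ t ∈ S, σ t] fun ω k => D.site k ω := fun S hS =>
    @measurable_pi_lambda _ _ _ (⨆ t ∈ S, σ t) _ _ fun k =>
      Measurable.of_comap_le (le_iSup₂_of_le _ (hS k) le_rfl)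
  have m3 : ∀ S : Set (Unit ⊕ ℕ ⊕ A ⊕ B), (∀ k, Sum.inr (Sum.inr (Sum.inr k)) ∈ S) →
      Measurable[⨆ t ∈ S, σ t] fun ω k => D.field k ω := fun S hS =>
    @measurable_pi_lambda _ _ _ (⨆ t ∈ S, σ t) _ _ fun k =>
      Measurable.of_comap_le (le_iSup₂_of_le _ (hS k) le_rfl)
  refine ⟨key _ _ {Sum.inl ()} (m0 _ rfl) (((m1 _ (by simp)).prodMk (m2 _ (by simp))).prodMk
      (m3 _ (by simp))),
    key _ _ (Set.range fun v => Sum.inr (Sum.inr (Sum.inr v)))ᶜ
      ((m1 _ (by simp)).prodMk (m2 _ (by simp))) (m3 _ (by simp)),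
    key _ _ (Set.range fun k => Sum.inr (Sum.inl k)) (m1 _ (by simp)) (m2 _ (by simp)), ?_, ?_, ?_⟩
  · exact (iIndepFun_iff_iIndep _ _ _).2
      (hi.precomp (g := fun k => Sum.inr (Sum.inl k)) fun _ _ e => by simpa using e)
  · exact (iIndepFun_iff_iIndep _ _ _).2
      (hi.precomp (g := fun k => Sum.inr (Sum.inr (Sum.inl k))) fun _ _ e => by simpa using e)
  · exact (iIndepFun_iff_iIndep _ _ _).2
      (hi.precomp (g := fun k => Sum.inr (Sum.inr (Sum.inr k))) fun _ _ e => by simpa using e)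

theorem Sample.Valid.prob (h : D.Valid P c τ ν) : IsProbabilityMeasure P :=
  h.num.2.isProbabilityMeasure

theorem Sample.Valid.joint (h : D.Valid P c τ ν) :
    MeasurePreserving (fun ω => (D.num ω, D.rest ω)) P ((poissonMeasure c).prod (P.map D.rest)) := by
  have := h.prob
  refine ⟨h.num.1.prodMk h.meas_rest, ?_⟩
  rw [h.groups.1.map_prod_eq_prod_map_map h.num.1.aemeasurable h.meas_rest.aemeasurable,
    h.num.2.map_eq]

theorem Sample.Valid.joint' (h : D.Valid P c τ ν) {W : Type} [MeasurableSpace W] (Q : Measure W)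
    [IsProbabilityMeasure Q] :
    MeasurePreserving (fun z : Ω × W => (D.num z.1, D.rest z.1, z.2)) (P.prod Q)
      ((poissonMeasure c).prod ((P.map D.rest).prod Q)) := by
  have := h.prob
  exact (measurePreserving_prodAssoc _ _ _).comp (h.joint.prod (MeasurePreserving.id Q))

theorem Sample.Valid.law_theta (h : D.Valid P c τ ν) (n : ℕ) :
    P.map (fun ω (k : Fin n) => D.theta k ω) = Measure.pi fun _ => τ := by
  have h1 := h.groups.2.2.2.1.precomp (g := fun k : Fin n => (k : ℕ)) Fin.val_injective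
  refine (h1.map_fun_eq_pi_map fun k : Fin n => (h.theta k).1.aemeasurable).trans ?_
  congr 1
  funext k
  exact (h.theta k).2.map_eq

/-- The finite dimensional laws. -/
theorem Sample.Valid.law (h : D.Valid P c τ ν) (n : ℕ) {κ : Type} [Fintype κ] {e : κ → A}
    (he : Function.Injective e) {H : Type} [MeasurableSpace H] {g : (B → ℝ) → H}
    (hg : Measurable g) {η : Measure H} (hη : P.map (fun ω => g fun v => D.field v ω) = η) :
    MeasurePreserving (fun x : ((ℕ → Fn K) × (A → Fin M)) × (B → ℝ) =>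
        ((fun k : Fin n => x.1.1 k, fun a => x.1.2 (e a)), g x.2)) (P.map D.rest)
      (((Measure.pi fun _ => τ).prod (Measure.pi fun _ => uniformOn Set.univ)).prod η) := by
  have := h.prob
  obtain ⟨-, h2, h3, -, h5, -⟩ := h.groups
  have r1 : Measurable fun (y : ℕ → Fn K) (k : Fin n) => y k :=
    measurable_pi_lambda _ fun k => measurable_pi_apply _
  have r2 : Measurable fun (y : A → Fin M) (a : κ) => y (e a) :=
    measurable_pi_lambda _ fun k => measurable_pi_apply _
  have hm : Measurable fun x : ((ℕ → Fn K) × (A → Fin M)) × (B → ℝ) =>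
      ((fun k : Fin n => x.1.1 k, fun a => x.1.2 (e a)), g x.2) := (r1.prodMap r2).prodMap hg
  have t1 : Measurable fun ω (k : Fin n) => D.theta k ω :=
    measurable_pi_lambda _ fun k => (h.theta k).1
  have t2 : Measurable fun ω (a : κ) => D.site (e a) ω :=
    measurable_pi_lambda _ fun a => (h.site _).1
  have t3 : Measurable fun ω => g fun v => D.field v ω :=
    hg.comp (measurable_pi_lambda _ fun v => (h.field v).1)
  refine ⟨hm, ?_⟩
  rw [Measure.map_map hm h.meas_rest]
  refine ((h2.comp (r1.prodMap r2) hg).map_prod_eq_prod_map_map (t1.prodMk t2).aemeasurable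
    t3.aemeasurable).trans ?_
  congr 1
  refine ((h3.comp r1 r2).map_prod_eq_prod_map_map t1.aemeasurable t2.aemeasurable).trans ?_
  congr 1
  · exact h.law_theta n
  · refine ((h5.precomp he).map_fun_eq_pi_map fun a => (h.site _).1.aemeasurable).trans ?_
    congr 1
    funext a
    exact (h.site _).2.map_eq

theorem Sample.Valid.law' (h : D.Valid P c τ ν) (n : ℕ) :
    MeasurePreserving (fun (x : ((ℕ → Fn K) × (A → Fin M)) × (B → ℝ)) (k : Fin n) => x.1.1 k)
      (P.map D.rest) (Measure.pi fun _ => τ) := by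
  have hm : Measurable fun (x : ((ℕ → Fn K) × (A → Fin M)) × (B → ℝ)) (k : Fin n) => x.1.1 k :=
    measurable_pi_lambda _ fun k => (measurable_pi_apply _).comp (measurable_fst.comp measurable_fst)
  exact ⟨hm, (Measure.map_map hm h.meas_rest).trans (h.law_theta n)⟩

end Sample

theorem exists_sample (K : ℕ) (A B : Type) (M : ℕ) [NeZero M] (c : ℝ≥0) (τ : Measure (Fn K))
    (ν : Measure ℝ) [IsProbabilityMeasure τ] [IsProbabilityMeasure ν] :
    ∃ (Ω : Type) (_ : MeasurableSpace Ω) (P : Measure Ω) (D : Sample Ω K A B M),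
      D.Valid P c τ ν := by
  let X : Unit ⊕ ℕ ⊕ A ⊕ B → Type :=
    Sum.elim (fun _ => ℕ) (Sum.elim (fun _ => Fn K) (Sum.elim (fun _ => Fin M) fun _ => ℝ))
  let mX : ∀ t, MeasurableSpace (X t) := fun t => match t with
    | .inl _ => (inferInstance : MeasurableSpace ℕ)
    | .inr (.inl _) => (inferInstance : MeasurableSpace (Fn K))
    | .inr (.inr (.inl _)) => (inferInstance : MeasurableSpace (Fin M))
    | .inr (.inr (.inr _)) => (inferInstance : MeasurableSpace ℝ)
  let μ : ∀ t, Measure (X t) := fun t => match t with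
    | .inl _ => poissonMeasure c
    | .inr (.inl _) => τ
    | .inr (.inr (.inl _)) => (uniformOn Set.univ : Measure (Fin M))
    | .inr (.inr (.inr _)) => ν
  have hμ : ∀ t, IsProbabilityMeasure (μ t) := by
    rintro (_ | k | i | v)
    · exact (inferInstance : IsProbabilityMeasure (poissonMeasure c))
    · exact (inferInstance : IsProbabilityMeasure τ)
    · exact (inferInstance : IsProbabilityMeasure (uniformOn Set.univ : Measure (Fin M)))
    · exact (inferInstance : IsProbabilityMeasure ν)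
  obtain ⟨Ω, mΩ, P, Y, h1, h2, h3, -⟩ := exists_hasLaw_indepFun X μ
  refine ⟨Ω, mΩ, P, ⟨Y (.inl ()), fun k => Y (.inr (.inl k)), fun i => Y (.inr (.inr (.inl i))),
    fun v => Y (.inr (.inr (.inr v)))⟩, ⟨h1 _, h2 _⟩, fun _ => ⟨h1 _, h2 _⟩, fun _ => ⟨h1 _, h2 _⟩,
    fun _ => ⟨h1 _, h2 _⟩, ?_⟩
  convert (iIndepFun_iff_iIndep _ _ _).1 h3 using 1
  funext t
  rcases t with _ | k | i | v <;> rfl

end Vale.Agent.P168W95
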