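import Vale.Agent.P168W95.Br

/-! P168: the classes of models, and the formula for samples. -/

namespace Vale.Agent.P168W95

open MeasureTheory ProbabilityTheory Filter Topology
open scoped NNReal
open P168 (Clause maxTheta)

variable {Ω₀ : Type*} [MeasurableSpace Ω₀] {P₀ : Measure Ω₀} [IsProbabilityMeasure P₀] {K : ℕ}
  {θ : Ω₀ → Fn K} {a b : Ω₀ → ℝ} {f : Fin K → Ω₀ → Bool → ℝ} {h : Ω₀ → ℝ}

/-- The clause of a model. -/
def cl (a b : Ω₀ → ℝ) (f : Fin K → Ω₀ → Bool → ℝ) (ω : Ω₀) : Clause K :=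
  (a ω, b ω, fun j => f j ω)

omit [IsProbabilityMeasure P₀] in
theorem IsModel.meas_cl (hM : IsModel P₀ θ a b f h) : Measurable (cl a b f) :=
  hM.meas.2.1.prodMk (hM.meas.2.2.1.prodMk (measurable_pi_lambda _ hM.meas.2.2.2.1))

omit [IsProbabilityMeasure P₀] in
theorem IsModel.ae_th (hM : IsModel P₀ θ a b f h) : th ∘ cl a b f =ᵐ[P₀] θ := by
  filter_upwards [hM.form] with ω hω
  funext σ
  exact (congrArg Real.log (hω σ).symm).trans (Real.log_exp _)

omit [IsProbabilityMeasure P₀] in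
theorem IsModel.law (hM : IsModel P₀ θ a b f h) : P₀.map θ = (P₀.map (cl a b f)).map th := by
  rw [Measure.map_map meas_th hM.meas_cl, Measure.map_congr hM.ae_th]

omit [IsProbabilityMeasure P₀] in
theorem IsModel.max_int (hM : IsModel P₀ θ a b f h) : Integrable maxTheta (P₀.map (cl a b f)) := by
  refine (integrable_map_measure P168.measurable_maxTheta.aestronglyMeasurable
    hM.meas_cl.aemeasurable).2 (hM.theta_int.congr ?_)
  filter_upwards [hM.ae_th] with ω hω
  rw [← hω]
  rfl

theorem IsModel.bare (hM : IsModel P₀ θ a b f h) :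
    P168S.BareClass K (P₀.map (cl a b f)) (P₀.map h) := by
  have hc := hM.meas_cl.aemeasurable (μ := P₀)
  have hb : Measurable fun c : Clause K => c.2.1 := measurable_fst.comp measurable_snd
  refine ⟨hM.two_le, hM.even, Measure.isProbabilityMeasure_map hc,
    Measure.isProbabilityMeasure_map hM.meas.2.2.2.2.aemeasurable,
    (ae_map_iff hc (measurableSet_lt measurable_const measurable_fst)).2
      (hM.range.mono fun ω hω => hω.1),
    (ae_map_iff hc (measurableSet_Ioo.preimage hb)).2 (hM.range.mono fun ω hω => hω.2.1),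
    ae_all_iff.2 fun j => ae_all_iff.2 fun s => (ae_map_iff hc (measurableSet_Icc.preimage
      ((measurable_pi_apply s).comp ((measurable_pi_apply j).comp
        (measurable_snd.comp measurable_snd))))).2 (hM.range.mono fun ω hω => hω.2.2 j s),
    fun n hn => ?_, fun σ => ?_, ?_⟩
  · exact (hM.positivity n hn).trans_eq
      (integral_map hc (hb.neg.pow_const n).aestronglyMeasurable).symm
  · exact hM.max_int.mono' (P168.measurable_theta σ).aestronglyMeasurable
      (Eventually.of_forall fun c => P168.abs_theta_le c σ)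
  · exact (integrable_map_measure aestronglyMeasurable_id hM.meas.2.2.2.2.aemeasurable).2
      hM.field_int

theorem IsModel.inClass (hM : IsModel P₀ θ a b f h) (hI : PTIndep P₀ b f) :
    P168.InClass K (P₀.map (cl a b f)) (P₀.map h) := by
  have hB := hM.bare
  have hK := hM.two_le
  have hf := hM.meas.2.2.2.1
  refine ⟨hB.two_le, hB.even, hB.prob_clause, hB.prob_field, hB.a_pos, hB.b_mem, hB.f_mem,
    ⟨P₀.map b, P₀.map (f ⟨0, by omega⟩),
      Measure.isProbabilityMeasure_map hM.meas.2.2.1.aemeasurable,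
      Measure.isProbabilityMeasure_map (hf _).aemeasurable, ?_⟩,
    hB.positivity, hB.theta_int, hB.field_int⟩
  rw [Measure.map_map measurable_snd hM.meas_cl]
  refine (hI.indep_b.map_prod_eq_prod_map_map hM.meas.2.2.1.aemeasurable
    (measurable_pi_lambda _ hf).aemeasurable).trans ?_
  congr 1
  refine (hI.indep.map_fun_eq_pi_map fun j => (hf j).aemeasurable).trans ?_
  congr 1
  funext j
  exact (hI.same j _).map_eq

theorem IsModel.samples (hM : IsModel P₀ θ a b f h) (A B : Type) (M : ℕ) [NeZero M] (c : ℝ≥0) :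
    ∃ (Ω : Type) (_ : MeasurableSpace Ω) (P : Measure Ω) (D : Sample Ω K A B M),
      D.Valid P c (P₀.map θ) (P₀.map h) := by
  have := Measure.isProbabilityMeasure_map (μ := P₀) hM.meas.1.aemeasurable
  have := Measure.isProbabilityMeasure_map (μ := P₀) hM.meas.2.2.2.2.aemeasurable
  exact exists_sample K A B M c _ _

theorem IsModel.main (hM : IsModel P₀ θ a b f h) (lam : ℝ≥0) {Ω : ℕ → Type*}
    [∀ N, MeasurableSpace (Ω N)] (P : ∀ N, Measure (Ω N))
    (D : ∀ N, Sample (Ω N) K (ℕ × Fin K) (Fin (N + 1)) (N + 1))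
    (hD : ∀ N, (D N).Valid (P N) (lam * (N + 1 : ℕ)) (P₀.map θ) (P₀.map h))
    {Ω₁ : Type*} [MeasurableSpace Ω₁] (P₁ : Measure Ω₁) (D₁ : Sample Ω₁ K ℕ Unit K)
    (h₁ : D₁.Valid P₁ (K * lam) (P₀.map θ) (P₀.map h))
    {Ω₂ : Type*} [MeasurableSpace Ω₂] (P₂ : Measure Ω₂) (D₂ : Sample Ω₂ K Empty Empty 1)
    (h₂ : D₂.Valid P₂ ((K - 1 : ℕ) * lam) (P₀.map θ) (P₀.map h)) :
    (∀ N, Integrable (logZ (D N)) (P N)) ∧
      (∀ r m x, IsTrial r m x →
        Integrable (logBottom r m x (bigU D₁)) (P₁.prod (levelLaw K)) ∧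
        Integrable (logBottom r m x (bigV D₂)) (P₂.prod (levelLaw K))) ∧
      ⨅ r, phi P₁ D₁ P₂ D₂ r ≤ liminf (fun N => (pressure (P N) (D N) : EReal)) atTop ∧
      (PTIndep P₀ b f → ∃ L : ℝ, Tendsto (fun N => pressure (P N) (D N)) atTop (𝓝 L) ∧
        ⨅ r, phi P₁ D₁ P₂ D₂ r = (L : EReal)) := by
  have hB := hM.bare
  have := hB.prob_clause
  have := hB.prob_field
  have : NeZero K := ⟨by have := hM.two_le; omega⟩
  rw [hM.law] at hD h₁ h₂
  have e1 := fun N => pressure_eq (hD N) hM.max_int hB.field_int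
  have e2 : ⨅ r, phi P₁ D₁ P₂ D₂ r = P168.mezardParisi lam (P₀.map (cl a b f)) (P₀.map h) := by
    refine iInf_congr fun r => iInf_congr fun m => iInf_congr fun x => iInf_congr fun hx => ?_
    rw [(calT_U h₁ hM.max_int hB.field_int hx).2, (calT_V h₂ hM.max_int hx).2]
  simp_rw [e2, fun N => (e1 N).2]
  refine ⟨fun N => (e1 N).1, fun r m x hx => ⟨(calT_U h₁ hM.max_int hB.field_int hx).1,
    (calT_V h₂ hM.max_int hx).1⟩, ?_, fun hI => ?_⟩
  · rw [liminf_nat_add (fun N => (P168.pressure lam (P₀.map (cl a b f)) (P₀.map h) N : EReal)) 1]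
    exact P168S.lower hB lam
  · obtain ⟨L, h1, h2⟩ := P168.Fin45.formula (P168.Fin45.wide_of_in (hM.inClass hI)) lam
    exact ⟨L, (tendsto_add_atTop_iff_nat 1).2 h1, h2⟩

theorem viana_bray (β : ℝ) {g : Ω₀ → ℝ} (hg : Measurable g) (hgi : Integrable g P₀)
    (hs : IdentDistrib g (-g) P₀ P₀) (hh : Measurable h) (hhi : Integrable h P₀) :
    IsModel P₀ (fun ω (σ : Fin 2 → Bool) => β * g ω * spin (σ 0) * spin (σ 1))
        (fun ω => Real.cosh (β * g ω)) (fun ω => Real.tanh (β * g ω)) (fun _ _ => spin) h ∧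
      PTIndep P₀ (fun ω => Real.tanh (β * g ω)) (fun (_ : Fin 2) _ => spin) := by
  have ht : Measurable fun t : ℝ => Real.tanh (β * t) := by
    simp_rw [Real.tanh_eq_sinh_div_cosh]
    fun_prop
  refine ⟨⟨le_rfl, even_two, ⟨by fun_prop, by fun_prop, ht.comp hg, fun _ => measurable_const, hh⟩,
    Eventually.of_forall fun ω σ => ?_, Eventually.of_forall fun ω => ⟨Real.cosh_pos _,
      ⟨Real.neg_one_lt_tanh _, Real.tanh_lt_one _⟩, fun _ s => by cases s <;> simp [spin]⟩,
    fun n _ => ?_, hhi, ?_⟩, fun _ _ => IdentDistrib.refl aemeasurable_const, ?_,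
    indepFun_const_right _ _⟩
  · have h1 := (Real.cosh_pos (β * g ω)).ne'
    rw [Fin.prod_univ_two, Real.tanh_eq_sinh_div_cosh, mul_add, mul_one, ← mul_assoc,
      mul_div_cancel₀ _ h1]
    cases σ 0 <;> cases σ 1 <;> simp [spin, ← sub_eq_add_neg]
  · rcases n.even_or_odd with hn | hn
    · exact integral_nonneg fun ω => hn.pow_nonneg _
    · have h1 := (hs.comp (ht.neg.pow_const n)).integral_eq
      simp only [Function.comp_def, Pi.neg_apply, mul_neg, Real.tanh_neg, hn.neg_pow,
        integral_neg] at h1 ⊢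
      linarith
  · refine (hgi.const_mul β).abs.congr (Eventually.of_forall fun ω => ?_)
    have h1 : ∀ s, |spin s| = 1 := P168.KS.spin_abs
    simp [abs_mul, h1]
  · refine iIndepFun_iff_measure_inter_preimage_eq_mul.2 fun S t _ => ?_
    by_cases hS : ∀ i ∈ S, spin ∈ t i
    · rw [Finset.prod_eq_one fun i hi => by simp [hS i hi],
        Set.iInter₂_congr fun i hi => Set.preimage_const_of_mem (hS i hi)]
      simp
    · push Not at hS
      obtain ⟨i, hi, h2⟩ := hS
      rw [Finset.prod_eq_zero hi (by simp [h2])]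
      exact measure_mono_null (Set.biInter_subset_of_mem hi) (by simp [h2])

end Vale.Agent.P168W95
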